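import Vale.Agent.P217.Main
import Vale.Agent.P217.Fgl.Nice
import Vale.Agent.P217.Deform.Statement
import Vale.Agent.P217.Converse
import Vale.Agent.P217.Point
import Vale.Agent.P217.PointZero
import Vale.Agent.P217.Closed
import Vale.Agent.P217.CharZero.Core
import Vale.Agent.P217.CharP.Core
import Vale.Agent.P217.Rigid
import Vale.Agent.P217.Linear
import Vale.Agent.P217.Sharp.Exists
import Vale.Agent.P217.Sharp.Ln
import Vale.Agent.P217.Sharp.Rank

/-!
P217, Q1: the invariant prime and radical ideals of the Lubin-Tate ring are the height ideals.
-/

namespace Vale.Agent.Results.P217.InvariantIdeals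

open Vale.Agent.P217

/-- The classification of invariant prime and radical ideals, for all primes and all heights. -/
theorem result : ∀ (p : ℕ) [Fact p.Prime] (n : ℕ), 1 ≤ n → ChaiClassification p n := by
  intro p _ n hn
  have hA : ActionStatement p n := Deform.actionStatement
  have hEnd : CharP.EndgameStatement p n :=
    CharP.endgameStatement p n (untiltStatement p) (lnStatement p) (rankStatement p)
      (linearStatement p) (rigidStatement p) (CharP.iotaExists p) (CharP.iotaAdd p)
      (CharP.iotaPow p) (CharP.iotaSurj p)
  exact chai_of_statements hn (fglStatement n p) Deform.deformStatement hA (converseStatement p n)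
    (pointStatement p n (closedStatement p)) (pointZeroStatement p n) (CharZero.charZeroCore hA)
    (CharP.charPCore hA hEnd)

end Vale.Agent.Results.P217.InvariantIdeals
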